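import Vale.Agent.N249X.Cor

/-!
# Dimension reduction in `L_p`: linear maps, and distortion close to `1`
-/

open MeasureTheory Filter Asymptotics Topology
open scoped ENNReal

universe u

namespace Vale.Agent.Results.P249.A0NearLinear

/-- The map `f` has distortion at most `D` on the finite set `X`. -/
def Distortion {E F : Type*} [NormedAddCommGroup E] [NormedAddCommGroup F]
    (X : Finset E) (f : E → F) (D : ℝ) : Prop :=
  ∃ s : ℝ, 0 < s ∧ ∀ x ∈ X, ∀ y ∈ X, s * ‖x - y‖ ≤ ‖f x - f y‖ ∧ ‖f x - f y‖ ≤ D * s * ‖x - y‖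

/-- Every `n`-point subset of every real `L_p(μ)` has an arbitrary map into `ℓ_p^d` of distortion
at most `D`. -/
def Suffices (p : ℝ≥0∞) [Fact (1 ≤ p)] (n : ℕ) (D : ℝ) (d : ℕ) : Prop :=
  ∀ (Ω : Type u) [MeasurableSpace Ω] (μ : Measure Ω) (X : Finset (Lp ℝ p μ)),
    X.card = n → ∃ f : Lp ℝ p μ → PiLp p (fun _ : Fin d => ℝ), Distortion X f D

/-- Some bounded linear map `E → F` has distortion at most `D` on `X`. -/
def LinDistortion {E : Type*} [NormedAddCommGroup E] [NormedSpace ℝ E] (X : Finset E)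
    (F : Type*) [NormedAddCommGroup F] [NormedSpace ℝ F] (D : ℝ) : Prop :=
  ∃ T : E →L[ℝ] F, Distortion X T D

/-- The same as `Suffices` with bounded linear maps `L_p(μ) → ℓ_p^d`. -/
def SufficesLin (p : ℝ≥0∞) [Fact (1 ≤ p)] (n : ℕ) (D : ℝ) (d : ℕ) : Prop :=
  ∀ (Ω : Type u) [MeasurableSpace Ω] (μ : Measure Ω) (X : Finset (Lp ℝ p μ)),
    X.card = n → LinDistortion X (PiLp p (fun _ : Fin d => ℝ)) D

/-- `d_p(n, D)` -/
noncomputable def dim (p : ℝ≥0∞) [Fact (1 ≤ p)] (n : ℕ) (D : ℝ) : ℕ :=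
  sInf {d : ℕ | Suffices.{u} p n D d}

/-- the least dimension for bounded linear maps -/
noncomputable def dimLin (p : ℝ≥0∞) [Fact (1 ≤ p)] (n : ℕ) (D : ℝ) : ℕ :=
  sInf {d : ℕ | SufficesLin.{u} p n D d}

theorem result (p : ℝ≥0∞) [Fact (1 ≤ p)] (hp1 : 1 < p) (hptop : p ≠ ∞) (hp2 : p ≠ 2)
    (m b : ℝ) (hm : m = min p.toReal 2) (hb : b = 1 / (12 * p.toReal ^ 2)) :
    -- (1) the least dimension for linear maps is attained
    (∀ D : ℝ, 1 < D → ∀ n : ℕ, SufficesLin.{u} p n D (dimLin.{u} p n D)) ∧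
    -- (2) two sided bounds, uniform in `n` and `ε`
    (∃ C c : ℝ, 0 < c ∧ ∀ n : ℕ, 2 ≤ n → ∀ ε : ℝ, 0 < ε → ε ≤ 1 →
      c * n * min (n : ℝ) (ε ^ (-b)) * (1 - C * ε ^ (1 / m) * Real.log n) ≤ dim.{u} p n (1 + ε) ∧
      dim.{u} p n (1 + ε) ≤ dimLin.{u} p n (1 + ε) ∧
      dimLin.{u} p n (1 + ε) ≤ C * n * Real.log n / ε ^ 2) ∧
    -- (3) distortion `1 + (log n) ^ (-a)`
    (∀ a : ℝ, m < a →
      Tendsto (fun n : ℕ => (dim.{u} p n (1 + Real.log n ^ (-a)) : ℝ) / n) atTop atTop ∧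
      Tendsto (fun n : ℕ => Real.log (dim.{u} p n (1 + Real.log n ^ (-a))) / Real.log n) atTop
        (𝓝 1)) ∧
    -- (4) distortion `1 + n ^ (-α)`
    (∀ α : ℝ, 0 < α → α < 1 / 2 →
      (fun n : ℕ => (n : ℝ) ^ (1 + α * b)) =O[atTop]
        (fun n : ℕ => (dim.{u} p n (1 + (n : ℝ) ^ (-α)) : ℝ)) ∧
      (fun n : ℕ => (dim.{u} p n (1 + (n : ℝ) ^ (-α)) : ℝ)) =o[atTop] fun n : ℕ => (n : ℝ) ^ 2) := by
  subst hm hb
  refine ⟨fun D hD n => N249X.linAdm_dimL hptop n hD, ?_,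
    fun a ha => ⟨N249X.thr_super.{u} hp1 hptop hp2 ha, N249X.thr_one.{u} hp1 hptop hp2 ha⟩,
    fun α h0 h1 => ⟨?_, N249X.pow_upper.{u} hptop h0 h1⟩⟩
  · obtain ⟨C, c, hC, hc, h1⟩ := N249X.poly_lower.{u} hp1 hptop hp2
    obtain ⟨C', hC', h2⟩ := N249X.dimL_le.{u} hptop
    refine ⟨C + C', c, hc, fun n hn ε h0 h => ?_⟩
    have hL : 0 ≤ Real.log n := Real.log_natCast_nonneg n
    refine ⟨le_trans ?_ (h1 n hn ε h0 h), N249X.dimU_le_dimL.{u} hptop n (by linarith),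
      (h2 n hn ε h0 h).trans ?_⟩ <;> gcongr <;> linarith
  · obtain ⟨c, hc, h⟩ := N249X.pow_lower.{u} hp1 hptop hp2
    have hP := N249.one_lt_toReal hp1 hptop
    have h2 : 1 + α / (12 * p.toReal ^ 2) ≤ 2 := by
      have : α / (12 * p.toReal ^ 2) ≤ 1 := by
        rw [div_le_one (by positivity)]
        nlinarith
      linarith
    refine IsBigO.of_bound c⁻¹ ?_
    filter_upwards [h α h0] with n hn
    rw [min_eq_right h2] at hn
    rwa [Real.norm_natCast, Real.norm_of_nonneg (by positivity), le_inv_mul_iff₀ hc, mul_one_div]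

end Vale.Agent.Results.P249.A0NearLinear
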